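import Vale.Agent.P227.M.Stmts
import Vale.Agent.P227.M.Bas
import Vale.Agent.P227.M.Loc.TauB

/-! # P227/M/LOC/Loc945: the block LOC (hedge), StmtLocal from the other interface statements -/

open MeasureTheory
open scoped Topology

namespace Vale.Agent.P227.M.Loc945

variable {n : ℕ}

/-! ## measurable functions of polynomial growth -/

/-- measurable function of polynomial growth -/
def Gm (f : E n → ℝ) : Prop :=
  Measurable f ∧ ∃ (B : ℝ) (k : ℕ), 0 ≤ B ∧ ∀ x, |f x| ≤ B * (1 + ‖x‖) ^ k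

theorem Gm.of_gr {f : E n → ℝ} (hf : Gr f) : Gm f := ⟨hf.1.measurable, hf.2⟩

theorem Gm.const (a : ℝ) : Gm (fun _ : E n => a) := Gm.of_gr (Gr.const a)

theorem Gm.coord (i : Fin n) : Gm (fun x : E n => x i) := Gm.of_gr (Gr.coord i)

theorem Gm.of_bound {f : E n → ℝ} (hf : Measurable f) {B : ℝ} (hB : ∀ x, |f x| ≤ B) : Gm f := by
  refine ⟨hf, |B|, 0, abs_nonneg _, fun x => ?_⟩
  simpa using (hB x).trans (le_abs_self B)

theorem Gm.add {f g : E n → ℝ} (hf : Gm f) (hg : Gm g) : Gm (fun x => f x + g x) := by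
  obtain ⟨hfc, B, k, hB, hb⟩ := hf
  obtain ⟨hgc, D, l, hD, hd⟩ := hg
  refine ⟨hfc.add hgc, B + D, k + l, add_nonneg hB hD, fun x => ?_⟩
  have h1 := one_le_one_add_norm x
  have hk : (1 + ‖x‖) ^ k ≤ (1 + ‖x‖) ^ (k + l) := pow_le_pow_right₀ h1 (Nat.le_add_right _ _)
  have hl : (1 + ‖x‖) ^ l ≤ (1 + ‖x‖) ^ (k + l) := pow_le_pow_right₀ h1 (Nat.le_add_left _ _)
  calc |f x + g x| ≤ |f x| + |g x| := abs_add_le _ _
    _ ≤ B * (1 + ‖x‖) ^ k + D * (1 + ‖x‖) ^ l := add_le_add (hb x) (hd x)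
    _ ≤ B * (1 + ‖x‖) ^ (k + l) + D * (1 + ‖x‖) ^ (k + l) := by gcongr
    _ = _ := by ring

theorem Gm.mul {f g : E n → ℝ} (hf : Gm f) (hg : Gm g) : Gm (fun x => f x * g x) := by
  obtain ⟨hfc, B, k, hB, hb⟩ := hf
  obtain ⟨hgc, D, l, hD, hd⟩ := hg
  refine ⟨hfc.mul hgc, B * D, k + l, mul_nonneg hB hD, fun x => ?_⟩
  rw [abs_mul, pow_add]
  calc |f x| * |g x| ≤ (B * (1 + ‖x‖) ^ k) * (D * (1 + ‖x‖) ^ l) :=
        mul_le_mul (hb x) (hd x) (abs_nonneg _) (mul_nonneg hB (pow_nonneg (by positivity) _))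
    _ = _ := by ring

theorem Gm.const_mul {f : E n → ℝ} (hf : Gm f) (a : ℝ) : Gm (fun x => a * f x) :=
  (Gm.const a).mul hf

theorem Gm.neg {f : E n → ℝ} (hf : Gm f) : Gm (fun x => -f x) := by
  have h := hf.const_mul (-1)
  simpa using h

theorem Gm.sub {f g : E n → ℝ} (hf : Gm f) (hg : Gm g) : Gm (fun x => f x - g x) := by
  have h := hf.add hg.neg
  simpa [sub_eq_add_neg] using h

theorem Gm.sq {f : E n → ℝ} (hf : Gm f) : Gm (fun x => f x ^ 2) := by
  have h := hf.mul hf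
  simpa [pow_two] using h

theorem Gm.sum {ι : Type*} (s : Finset ι) {f : ι → E n → ℝ} (hf : ∀ i, Gm (f i)) :
    Gm (fun x => ∑ i ∈ s, f i x) := by
  classical
  induction s using Finset.induction_on with
  | empty => simpa using Gm.const (n := n) 0
  | insert a s ha ih =>
    have h := (hf a).add ih
    simpa [Finset.sum_insert ha] using h

theorem Gm.integrable {f : E n → ℝ} (hf : Gm f) {V : E n → ℝ} {c C : ℝ} (hV : Reg V c C) :
    Integrable (fun x => f x * Real.exp (-V x)) := by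
  obtain ⟨hfm, B, k, hB, hb⟩ := hf
  have hg := hV.integrable_gr ((((Gr.const 1).add Gr.norm).pow k).const_mul B)
  refine hg.mono' ?_ (Filter.Eventually.of_forall fun x => ?_)
  · exact (hfm.mul (Real.continuous_exp.comp hV.cont.neg).measurable).aestronglyMeasurable
  · rw [norm_mul, Real.norm_eq_abs, Real.norm_eq_abs, Real.abs_exp]
    exact mul_le_mul_of_nonneg_right (hb x) (Real.exp_pos _).le

/-! ## the functional `Ex V` -/

section ex

variable {V : E n → ℝ} {c C : ℝ}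

theorem Ex_const_mul (a : ℝ) (f : E n → ℝ) : Ex V (fun x => a * f x) = a * Ex V f := by
  unfold Ex
  rw [← mul_div_assoc, ← integral_const_mul]
  congr 2
  ext x
  ring

theorem Ex_neg (f : E n → ℝ) : Ex V (fun x => -f x) = -Ex V f := by
  have h := Ex_const_mul (V := V) (-1) f
  simpa using h

theorem Ex_congr_ae {f g : E n → ℝ} (h : f =ᵐ[volume] g) : Ex V f = Ex V g := by
  unfold Ex
  congr 1
  refine integral_congr_ae ?_
  filter_upwards [h] with x hx
  rw [hx]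

theorem Ex_nonneg {f : E n → ℝ} (h : ∀ x, 0 ≤ f x) : 0 ≤ Ex V f :=
  div_nonneg (integral_nonneg fun x => mul_nonneg (h x) (Real.exp_pos _).le)
    (integral_nonneg fun _ => (Real.exp_pos _).le)

theorem Ex_add (hV : Reg V c C) {f g : E n → ℝ} (hf : Gm f) (hg : Gm g) :
    Ex V (fun x => f x + g x) = Ex V f + Ex V g := by
  unfold Ex
  rw [← add_div, ← integral_add (hf.integrable hV) (hg.integrable hV)]
  congr 2
  ext x
  ring

theorem Ex_sub (hV : Reg V c C) {f g : E n → ℝ} (hf : Gm f) (hg : Gm g) :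
    Ex V (fun x => f x - g x) = Ex V f - Ex V g := by
  unfold Ex
  rw [← sub_div, ← integral_sub (hf.integrable hV) (hg.integrable hV)]
  congr 2
  ext x
  ring

theorem Ex_sum (hV : Reg V c C) {ι : Type*} (s : Finset ι) {f : ι → E n → ℝ}
    (hf : ∀ i, Gm (f i)) : Ex V (fun x => ∑ i ∈ s, f i x) = ∑ i ∈ s, Ex V (f i) := by
  classical
  induction s using Finset.induction_on with
  | empty => simp [Ex]
  | insert a s ha ih =>
    rw [Finset.sum_insert ha, ← ih, ← Ex_add hV (hf a) (Gm.sum s hf)]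
    simp only [Finset.sum_insert ha]

theorem Ex_const (hV : Reg V c C) (a : ℝ) : Ex V (fun _ => a) = a := by
  unfold Ex
  rw [integral_const_mul]
  exact mul_div_cancel_right₀ a hV.Z_pos.ne'

theorem Ex_mono (hV : Reg V c C) {f g : E n → ℝ} (hf : Gm f) (hg : Gm g) (h : ∀ x, f x ≤ g x) :
    Ex V f ≤ Ex V g := by
  have h1 := Ex_nonneg (V := V) (f := fun x => g x - f x) fun x => sub_nonneg.2 (h x)
  rw [Ex_sub hV hg hf] at h1
  linarith

end ex

/-! ## matrices -/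

/-- entries measurable of polynomial growth -/
def GM (A : E n → Matrix (Fin n) (Fin n) ℝ) : Prop := ∀ i j, Gm (fun x => A x i j)

theorem GM.mul {A B : E n → Matrix (Fin n) (Fin n) ℝ} (hA : GM A) (hB : GM B) :
    GM (fun x => A x * B x) := fun i j => by
  simp only [Matrix.mul_apply]
  exact Gm.sum _ fun k => (hA i k).mul (hB k j)

theorem GM.trace {A : E n → Matrix (Fin n) (Fin n) ℝ} (hA : GM A) : Gm (fun x => (A x).trace) := by
  simp only [Matrix.trace, Matrix.diag]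
  exact Gm.sum _ fun k => hA k k

/-! ## bounded Lipschitz functions -/

/-- bounded Lipschitz function -/
def BL (f : E n → ℝ) : Prop :=
  (∃ A : ℝ, 0 ≤ A ∧ ∀ x, |f x| ≤ A) ∧ ∃ K : ℝ, 0 ≤ K ∧ ∀ x y, |f x - f y| ≤ K * ‖x - y‖

theorem BL.const (a : ℝ) : BL (fun _ : E n => a) :=
  ⟨⟨|a|, abs_nonneg a, fun _ => le_rfl⟩, 0, le_rfl, fun _ _ => by simp⟩

theorem BL.add {f g : E n → ℝ} (hf : BL f) (hg : BL g) : BL (fun x => f x + g x) := by
  obtain ⟨⟨A, hA, ha⟩, K, hK, hk⟩ := hf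
  obtain ⟨⟨B, hB, hb⟩, L, hL, hl⟩ := hg
  refine ⟨⟨A + B, by positivity, fun x => (abs_add_le _ _).trans (add_le_add (ha x) (hb x))⟩,
    K + L, by positivity, fun x y => ?_⟩
  have e : f x + g x - (f y + g y) = (f x - f y) + (g x - g y) := by ring
  rw [e, add_mul]
  exact (abs_add_le _ _).trans (add_le_add (hk x y) (hl x y))

theorem BL.mul {f g : E n → ℝ} (hf : BL f) (hg : BL g) : BL (fun x => f x * g x) := by
  obtain ⟨⟨A, hA, ha⟩, K, hK, hk⟩ := hf
  obtain ⟨⟨B, hB, hb⟩, L, hL, hl⟩ := hg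
  refine ⟨⟨A * B, by positivity, fun x => ?_⟩, A * L + K * B, by positivity, fun x y => ?_⟩
  · rw [abs_mul]
    exact mul_le_mul (ha x) (hb x) (abs_nonneg _) hA
  · have e : f x * g x - f y * g y = f x * (g x - g y) + (f x - f y) * g y := by ring
    rw [e]
    refine (abs_add_le _ _).trans ?_
    rw [abs_mul, abs_mul]
    have h1 := mul_le_mul (ha x) (hl x y) (abs_nonneg _) hA
    have h2 := mul_le_mul (hk x y) (hb y) (abs_nonneg _) (mul_nonneg hK (norm_nonneg (x - y)))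
    calc |f x| * |g x - g y| + |f x - f y| * |g y| ≤ A * (L * ‖x - y‖) + K * ‖x - y‖ * B :=
          add_le_add h1 h2
      _ = _ := by ring

theorem BL.neg {f : E n → ℝ} (hf : BL f) : BL (fun x => -f x) := by
  have h := (BL.const (-1)).mul hf
  simpa using h

theorem BL.sub {f g : E n → ℝ} (hf : BL f) (hg : BL g) : BL (fun x => f x - g x) := by
  have h := hf.add hg.neg
  simpa [sub_eq_add_neg] using h

theorem BL.sum {ι : Type*} (s : Finset ι) {f : ι → E n → ℝ} (hf : ∀ i, BL (f i)) :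
    BL (fun x => ∑ i ∈ s, f i x) := by
  classical
  induction s using Finset.induction_on with
  | empty => simpa using BL.const (n := n) 0
  | insert a s ha ih =>
    have h := (hf a).add ih
    simpa [Finset.sum_insert ha] using h

theorem BL.lipschitz {f : E n → ℝ} (hf : BL f) : ∃ K : NNReal, LipschitzWith K f := by
  obtain ⟨-, K, hK, hk⟩ := hf
  refine ⟨Real.toNNReal K, LipschitzWith.of_dist_le' fun x y => ?_⟩
  rw [Real.dist_eq, dist_eq_norm]
  exact hk x y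

theorem BL.cont {f : E n → ℝ} (hf : BL f) : Continuous f := by
  obtain ⟨K, hK⟩ := hf.lipschitz
  exact hK.continuous

theorem BL.gm {f : E n → ℝ} (hf : BL f) : Gm f := by
  obtain ⟨A, hA, ha⟩ := hf.1
  exact Gm.of_bound hf.cont.measurable ha

theorem BL.ae_diff {f : E n → ℝ} (hf : BL f) : ∀ᵐ x, DifferentiableAt ℝ f x := by
  obtain ⟨K, hK⟩ := hf.lipschitz
  exact hK.ae_differentiableAt

theorem BL.gm_pd {f : E n → ℝ} (hf : BL f) (i : Fin n) : Gm (pd i f) := by
  obtain ⟨K, hK⟩ := hf.lipschitz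
  refine Gm.of_bound (B := K) (measurable_fderiv_apply_const ℝ f (ei i)) fun x => ?_
  have h1 := norm_fderiv_le_of_lipschitz ℝ (x₀ := x) hK
  exact (abs_pd_le_norm f x i).trans h1

theorem test_pd {f : E n → ℝ} (hf : Test f) (i : Fin n) : Test (pd i f) :=
  ⟨contDiff_pd_top hf.1 i, hf.2.fderiv_apply ℝ (ei i)⟩

theorem test_hess {f : E n → ℝ} (hf : Test f) (i j : Fin n) : Test (fun x => hess f x i j) :=
  test_pd (test_pd hf j) i

theorem test_coord_mul {f : E n → ℝ} (hf : Test f) (i : Fin n) : Test (fun x => x i * f x) := by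
  refine ⟨?_, hf.2.mul_left⟩
  have h : ContDiff ℝ (⊤ : ℕ∞) (fun x : E n => x i) := by fun_prop
  exact h.mul hf.1

theorem BL.of_test {f : E n → ℝ} (hf : Test f) : BL f := by
  obtain ⟨A, hA⟩ := hf.2.exists_bound_of_continuous hf.1.continuous
  obtain ⟨K, hK⟩ := ContDiff.lipschitzWith_of_hasCompactSupport hf.2 hf.1 (by simp)
  refine ⟨⟨|A|, abs_nonneg _, fun x => (hA x).trans (le_abs_self A)⟩, K, K.2, fun x y => ?_⟩
  have h := hK.dist_le_mul x y
  rwa [Real.dist_eq, dist_eq_norm] at h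

theorem BL.tau {ψ V : E n → ℝ} {c C M : ℝ} (h : MM ψ V c C M) (i j : Fin n) :
    BL (fun x => tau ψ x i j) := by
  refine ⟨⟨1 / c, by have := h.c_pos; positivity, fun x => Loc.tau_bdd h x i j⟩,
    |(n : ℝ) ^ 2 * (1 / c) ^ 2 * M|, abs_nonneg _, fun x y => ?_⟩
  exact (Loc.tau_lip h x y i j).trans (mul_le_mul_of_nonneg_right (le_abs_self _) (norm_nonneg _))

theorem BL.lop {ψ V : E n → ℝ} {c C M : ℝ} (h : MM ψ V c C M) {f : E n → ℝ} (hf : Test f) :
    BL (Lop ψ f) := by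
  unfold Lop
  refine BL.sub (BL.sum _ fun i => BL.sum _ fun j => ?_) (BL.sum _ fun i => ?_)
  · exact (BL.tau h i j).mul (BL.of_test (test_hess hf i j))
  · exact BL.of_test (test_coord_mul (test_pd hf i) i)

/-! ## linearity of `pd`, `hess`, `fld` -/

theorem pd_add {f g : E n → ℝ} {x : E n} (hf : DifferentiableAt ℝ f x)
    (hg : DifferentiableAt ℝ g x) (i : Fin n) :
    pd i (fun z => f z + g z) x = pd i f x + pd i g x := by
  unfold pd
  rw [fderiv_fun_add hf hg]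
  rfl

theorem pd_const_mul {f : E n → ℝ} {x : E n} (hf : DifferentiableAt ℝ f x) (a : ℝ) (i : Fin n) :
    pd i (fun z => a * f z) x = a * pd i f x := by
  unfold pd
  rw [fderiv_const_mul hf a]
  rfl

theorem pd_sum {ι : Type*} (s : Finset ι) {f : ι → E n → ℝ} {x : E n}
    (hf : ∀ j, DifferentiableAt ℝ (f j) x) (i : Fin n) :
    pd i (fun z => ∑ j ∈ s, f j z) x = ∑ j ∈ s, pd i (f j) x := by
  unfold pd
  rw [fderiv_fun_sum fun j _ => hf j]
  simp

theorem pd_mul {f g : E n → ℝ} {x : E n} (hf : DifferentiableAt ℝ f x)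
    (hg : DifferentiableAt ℝ g x) (i : Fin n) :
    pd i (fun z => f z * g z) x = f x * pd i g x + g x * pd i f x := by
  unfold pd
  rw [fderiv_fun_mul hf hg]
  rfl

theorem pd_coord (i b : Fin n) (x : E n) : pd b (fun z : E n => z i) x = if i = b then 1 else 0 := by
  unfold pd
  have h : HasFDerivAt (fun z : E n => z i) (EuclideanSpace.proj i : E n →L[ℝ] ℝ) x :=
    (EuclideanSpace.proj i : E n →L[ℝ] ℝ).hasFDerivAt
  rw [h.fderiv]
  simp [ei_apply]

theorem hess_sum {ι : Type*} (s : Finset ι) {f : ι → E n → ℝ}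
    (hf : ∀ j, ContDiff ℝ (⊤ : ℕ∞) (f j)) (x : E n) (a b : Fin n) :
    hess (fun z => ∑ j ∈ s, f j z) x a b = ∑ j ∈ s, hess (f j) x a b := by
  unfold hess
  have h1 : pd b (fun z => ∑ j ∈ s, f j z) = fun z => ∑ j ∈ s, pd b (f j) z := by
    ext z
    exact pd_sum s (fun j => (hf j).differentiable (by simp) z) b
  rw [h1]
  exact pd_sum s (fun j => (contDiff_pd_top (hf j) b).differentiable (by simp) x) a

/-! ## pointwise inequalities -/

/-- `0 ≤ ⟨H (ρx - s), ρx - s⟩`, expanded -/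
theorem vec_term {H : Matrix (Fin n) (Fin n) ℝ} (hs : ∀ i j, H i j = H j i)
    (h : ∀ v : E n, 0 ≤ qf H v) (ρ : ℝ) (x : E n) (s : Fin n → ℝ) :
    0 ≤ ρ ^ 2 * qf H x - 2 * ρ * (∑ b, (∑ i, x i * H b i) * s b) + ∑ a, ∑ b, H a b * s a * s b := by
  have h1 := h (WithLp.toLp 2 fun i => ρ * x i - s i)
  have e1 : ∑ b, (∑ i, x i * H b i) * s b = ∑ a, ∑ b, H a b * x a * s b := by
    rw [Finset.sum_comm]
    refine Finset.sum_congr rfl fun b _ => ?_
    rw [Finset.sum_mul]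
    refine Finset.sum_congr rfl fun i _ => ?_
    rw [hs b i]
    ring
  have e2 : ∑ a, ∑ b, H a b * s a * x b = ∑ a, ∑ b, H a b * x a * s b := by
    rw [Finset.sum_comm]
    refine Finset.sum_congr rfl fun b _ => Finset.sum_congr rfl fun i _ => ?_
    rw [hs i b]
    ring
  have e3 : qf H (WithLp.toLp 2 fun i => ρ * x i - s i) =
      ρ ^ 2 * qf H x - ρ * (∑ a, ∑ b, H a b * x a * s b) - ρ * (∑ a, ∑ b, H a b * s a * x b)
        + ∑ a, ∑ b, H a b * s a * s b := by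
    unfold qf
    simp only [Finset.mul_sum, ← Finset.sum_sub_distrib, ← Finset.sum_add_distrib]
    refine Finset.sum_congr rfl fun a _ => Finset.sum_congr rfl fun b _ => ?_
    ring
  rw [e3, e2] at h1
  rw [e1]
  linarith

/-! ## the function `f = ∑ ρ_j ⟨x, ∇W_j⟩` -/

/-- `f = ∑ ρ_j ⟨x, ∇W_j⟩` -/
noncomputable def ff {J : ℕ} (W : Fin J → E n → ℝ) (ρ : Fin J → ℝ) (x : E n) : ℝ :=
  ∑ j, ρ j * ∑ i, x i * pd i (W j) x

theorem contDiff_coord (i : Fin n) : ContDiff ℝ (⊤ : ℕ∞) (fun x : E n => x i) := by fun_prop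

theorem ff_smooth {J : ℕ} {W : Fin J → E n → ℝ} (hW : ∀ j, Piece (W j)) (ρ : Fin J → ℝ) :
    ContDiff ℝ (⊤ : ℕ∞) (ff W ρ) := by
  unfold ff
  refine ContDiff.sum fun j _ => contDiff_const.mul (ContDiff.sum fun i _ => ?_)
  exact (contDiff_coord i).mul (contDiff_pd_top (hW j).smooth i)

theorem gm_xdW {W : E n → ℝ} (hW : Piece W) : Gm (fun x => ∑ i, x i * pd i W x) :=
  Gm.sum _ fun i => (Gm.coord i).mul (Gm.of_gr (hW.gr_pd i))

theorem gm_ff {J : ℕ} {W : Fin J → E n → ℝ} (hW : ∀ j, Piece (W j)) (ρ : Fin J → ℝ) :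
    Gm (ff W ρ) := by
  unfold ff
  exact Gm.sum _ fun j => (gm_xdW (hW j)).const_mul (ρ j)

theorem pd_xdW {W : E n → ℝ} (hW : Piece W) (b : Fin n) (x : E n) :
    pd b (fun z => ∑ i, z i * pd i W z) x = pd b W x + ∑ i, x i * hess W x b i := by
  have hd : ∀ i, DifferentiableAt ℝ (pd i W) x := fun i =>
    (contDiff_pd_top hW.smooth i).differentiable (by simp) x
  have hc : ∀ i, DifferentiableAt ℝ (fun z : E n => z i) x := fun i =>
    (contDiff_coord i).differentiable (by simp) x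
  rw [pd_sum (f := fun i (z : E n) => z i * pd i W z) Finset.univ (fun i => (hc i).mul (hd i)) b]
  have h1 : ∀ i, pd b (fun z : E n => z i * pd i W z) x
      = x i * hess W x b i + pd i W x * (if i = b then 1 else 0) := fun i => by
    rw [pd_mul (hc i) (hd i), pd_coord]
    rfl
  simp only [h1, Finset.sum_add_distrib, mul_ite, mul_one, mul_zero, Finset.sum_ite_eq',
    Finset.mem_univ, if_true]
  ring

theorem pd_ff {J : ℕ} {W : Fin J → E n → ℝ} (hW : ∀ j, Piece (W j)) (ρ : Fin J → ℝ) (b : Fin n)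
    (x : E n) : pd b (ff W ρ) x = ∑ j, ρ j * (pd b (W j) x + ∑ i, x i * hess (W j) x b i) := by
  have hd : ∀ j, DifferentiableAt ℝ (fun z : E n => ∑ i, z i * pd i (W j) z) x := fun j => by
    have h : ContDiff ℝ (⊤ : ℕ∞) (fun z : E n => ∑ i, z i * pd i (W j) z) :=
      ContDiff.sum fun i _ => (contDiff_coord i).mul (contDiff_pd_top (hW j).smooth i)
    exact h.differentiable (by simp) x
  unfold ff
  rw [pd_sum (f := fun j (z : E n) => ρ j * ∑ i, z i * pd i (W j) z) Finset.univ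
    (fun j => (hd j).const_mul (ρ j)) b]
  refine Finset.sum_congr rfl fun j _ => ?_
  rw [pd_const_mul (hd j), pd_xdW (hW j)]

/-! ## the fields -/

section fields

variable {ψ V : E n → ℝ} {c C M : ℝ}

theorem gm_tau (hm : MM ψ V c C M) (i j : Fin n) : Gm (fun x => tau ψ x i j) := (BL.tau hm i j).gm

theorem gm_fld (hm : MM ψ V c C M) {f : E n → ℝ} (hf : BL f) (b : Fin n) :
    Gm (fun x => fld ψ f b x) := by
  unfold fld
  exact Gm.sum _ fun k => (gm_tau hm b k).mul (hf.gm_pd k)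

theorem gM_tau (hm : MM ψ V c C M) : GM (fun x => tau ψ x) := fun i j => gm_tau hm i j

theorem gM_hess {W : E n → ℝ} (hW : Piece W) : GM (fun x => hess W x) := fun i j =>
  Gm.of_gr (hW.gr_hess i j)

theorem gM_hess_test {F : E n → ℝ} (hF : Test F) : GM (fun x => hess F x) := fun i j =>
  (BL.of_test (test_hess hF i j)).gm

theorem bl_LF (hm : MM ψ V c C M) {F : E n → ℝ} (hF : Test F) :
    BL (fun z => Lop ψ F z + F z) := (BL.lop hm hF).add (BL.of_test hF)

theorem bl_h (hm : MM ψ V c C M) {F u : E n → ℝ} (hF : Test F) (hu : Test u) :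
    BL (fun z => Lop ψ F z + F z + u z) := (bl_LF hm hF).add (BL.of_test hu)

theorem fld_split (hm : MM ψ V c C M) {F u : E n → ℝ} (hF : Test F) (hu : Test u) :
    ∀ᵐ x, ∀ b, fld ψ (fun z => Lop ψ F z + F z + u z) b x =
      fld ψ (fun z => Lop ψ F z + F z) b x + fld ψ u b x := by
  filter_upwards [(bl_LF hm hF).ae_diff] with x hx b
  unfold fld
  rw [← Finset.sum_add_distrib]
  refine Finset.sum_congr rfl fun k _ => ?_
  rw [pd_add hx (hu.1.differentiable (by simp) x)]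
  ring

end fields

/-! ## the main computation -/

section main

variable {ψ V : E n → ℝ} {c C M : ℝ} (hV : Nice V c C) (hm : MM ψ V c C M)
include hV hm

/-- `E ⟨∇W, s⟩ = E ⟨∇W, e⟩ + E tr (D²W τ N τ)` -/
theorem split_term (hdiv : StmtDiv) {W F u : E n → ℝ} (hW : Piece W) (hF : Test F) (hu : Test u) :
    Ex V (fun x => ∑ b, pd b W x * fld ψ u b x) =
      Ex V (fun x => ∑ b, pd b W x * fld ψ (fun z => Lop ψ F z + F z + u z) b x) +
      Ex V (fun x => (hess W x * tau ψ x * hess F x * tau ψ x).trace) := by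
  have hr := hV.toReg
  have h1 := hdiv n ψ V c C M hV hm F W hF hW.smooth
  have g1 : Gm (fun x => ∑ b, pd b W x * fld ψ (fun z => Lop ψ F z + F z) b x) :=
    Gm.sum _ fun b => (Gm.of_gr (hW.gr_pd b)).mul (gm_fld hm (bl_LF hm hF) b)
  have g2 : Gm (fun x => ∑ b, pd b W x * fld ψ u b x) :=
    Gm.sum _ fun b => (Gm.of_gr (hW.gr_pd b)).mul (gm_fld hm (BL.of_test hu) b)
  have h2 : Ex V (fun x => ∑ b, pd b W x * fld ψ (fun z => Lop ψ F z + F z + u z) b x) =
      Ex V (fun x => (∑ b, pd b W x * fld ψ (fun z => Lop ψ F z + F z) b x) +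
        ∑ b, pd b W x * fld ψ u b x) := by
    refine Ex_congr_ae ?_
    filter_upwards [fld_split hm hF hu] with x hx
    rw [← Finset.sum_add_distrib]
    refine Finset.sum_congr rfl fun b _ => ?_
    rw [hx b]
    ring
  rw [h2, Ex_add hr g1 g2, h1]
  ring

/-- `E (-Lu) f = ∑ ρ_j (P_j + B_j + C_j)` -/
theorem ibp_term (hibp : StmtIBP) (hdiv : StmtDiv) {J : ℕ} {W : Fin J → E n → ℝ}
    (hW : ∀ j, Piece (W j)) (ρ : Fin J → ℝ) {F u : E n → ℝ} (hF : Test F) (hu : Test u) :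
    Ex V (fun x => -(Lop ψ u x) * ff W ρ x) =
      ∑ j, ρ j * (Ex V (fun x => ∑ b, pd b (W j) x *
          fld ψ (fun z => Lop ψ F z + F z + u z) b x) +
        Ex V (fun x => (hess (W j) x * tau ψ x * hess F x * tau ψ x).trace) +
        Ex V (fun x => ∑ b, (∑ i, x i * hess (W j) x b i) * fld ψ u b x)) := by
  have hr := hV.toReg
  rw [hibp n ψ V c C M hV hm u (ff W ρ) hu (ff_smooth hW ρ)]
  have gs := fun b => gm_fld hm (BL.of_test hu) b
  have g1 : ∀ j, Gm (fun x => ∑ b, pd b (W j) x * fld ψ u b x) := fun j =>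
    Gm.sum _ fun b => (Gm.of_gr ((hW j).gr_pd b)).mul (gs b)
  have g2 : ∀ j, Gm (fun x => ∑ b, (∑ i, x i * hess (W j) x b i) * fld ψ u b x) := fun j =>
    Gm.sum _ fun b => (Gm.sum _ fun i => (Gm.coord i).mul (Gm.of_gr ((hW j).gr_hess b i))).mul (gs b)
  have e1 : (fun x => ∑ b, pd b (ff W ρ) x * fld ψ u b x) =
      fun x => ∑ j, ρ j * ((∑ b, pd b (W j) x * fld ψ u b x) +
        ∑ b, (∑ i, x i * hess (W j) x b i) * fld ψ u b x) := by
    ext x
    simp only [pd_ff hW ρ, Finset.sum_mul]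
    rw [Finset.sum_comm]
    refine Finset.sum_congr rfl fun j _ => ?_
    rw [mul_add, Finset.mul_sum, Finset.mul_sum, ← Finset.sum_add_distrib]
    refine Finset.sum_congr rfl fun b _ => ?_
    rw [← Finset.sum_mul]
    ring
  rw [e1, Ex_sum hr Finset.univ (fun j => ((g1 j).add (g2 j)).const_mul (ρ j))]
  refine Finset.sum_congr rfl fun j _ => ?_
  rw [Ex_const_mul, Ex_add hr (g1 j) (g2 j), split_term hV hm hdiv (hW j) hF hu]

/-- `E Lu = 0` -/
theorem ex_lop (hibp : StmtIBP) {u : E n → ℝ} (hu : Test u) : Ex V (Lop ψ u) = 0 := by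
  have h := hibp n ψ V c C M hV hm u (fun _ => 1) hu contDiff_const
  have e1 : (fun x => ∑ b, pd b (fun _ : E n => (1 : ℝ)) x * fld ψ u b x) = fun _ => 0 := by
    ext x
    simp [pd]
  have e2 : (fun x => -(Lop ψ u x) * 1) = fun x => -(Lop ψ u x) := by
    ext x
    ring
  rw [e1, e2, Ex_neg, Ex_const hV.toReg] at h
  linarith

/-- the summed positivity, for one summand -/
theorem one_term (hst : StmtStein) {W F u : E n → ℝ} (hW : Piece W) (ρ : ℝ) (hF : Test F)
    (hu : Test u) :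
    0 ≤ ρ ^ 2 * Ex V (fun x => (∑ i, x i * pd i W x) + qf (hess W x) x)
      - 2 * ρ * (Ex V (fun x => (hess W x * tau ψ x * hess F x * tau ψ x).trace) +
        Ex V (fun x => ∑ b, (∑ i, x i * hess W x b i) * fld ψ u b x))
      + (Ex V (fun x => (hess W x * tau ψ x * hess F x * tau ψ x * hess F x * tau ψ x).trace) +
        Ex V (fun x => ∑ a, ∑ b, hess W x a b * fld ψ u a x * fld ψ u b x)) := by
  have hr := hV.toReg
  have gs := fun b => gm_fld hm (BL.of_test hu) b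
  have GT := gM_tau hm
  have GH := gM_hess hW
  have GN := gM_hess_test hF
  have i1 : Gm (fun x => (hess W x * tau ψ x).trace) := (GH.mul GT).trace
  have i2 : Gm (fun x => (hess W x * tau ψ x * hess F x * tau ψ x).trace) :=
    (((GH.mul GT).mul GN).mul GT).trace
  have i3 : Gm (fun x => (hess W x * tau ψ x * hess F x * tau ψ x * hess F x * tau ψ x).trace) :=
    (((((GH.mul GT).mul GN).mul GT).mul GN).mul GT).trace
  have i4 : Gm (fun x => qf (hess W x) x) := by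
    unfold qf
    exact Gm.sum _ fun i => Gm.sum _ fun j => ((GH i j).mul (Gm.coord i)).mul (Gm.coord j)
  have i5 : Gm (fun x => ∑ b, (∑ i, x i * hess W x b i) * fld ψ u b x) :=
    Gm.sum _ fun b => (Gm.sum _ fun i => (Gm.coord i).mul (GH b i)).mul (gs b)
  have i6 : Gm (fun x => ∑ a, ∑ b, hess W x a b * fld ψ u a x * fld ψ u b x) :=
    Gm.sum _ fun a => Gm.sum _ fun b => ((GH a b).mul (gs a)).mul (gs b)
  have hsym : ∀ x i j, hess W x i j = hess W x j i := fun x i j => Loc.hess_symm hW.C2 x i j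
  have t1 := Ex_nonneg (V := V) (f := fun x => (ρ ^ 2 * (hess W x * tau ψ x).trace
      - 2 * ρ * (hess W x * tau ψ x * hess F x * tau ψ x).trace)
      + (hess W x * tau ψ x * hess F x * tau ψ x * hess F x * tau ψ x).trace) fun x => by
    refine Loc.trace_square_nonneg (Loc.posSemidef_of_qf (hsym x) (hW.psd x))
      (Loc.tau_posDef hm x).posSemidef ?_ ρ
    ext i j
    have := Loc.hess_symm (hF.1.of_le (by norm_cast) : ContDiff ℝ 2 F) x i j
    simp [this]
  have t2 := Ex_nonneg (V := V) (f := fun x => (ρ ^ 2 * qf (hess W x) x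
      - 2 * ρ * (∑ b, (∑ i, x i * hess W x b i) * fld ψ u b x))
      + ∑ a, ∑ b, hess W x a b * fld ψ u a x * fld ψ u b x) fun x =>
    vec_term (hsym x) (hW.psd x) ρ x fun b => fld ψ u b x
  rw [Ex_add hr ((i1.const_mul _).sub (i2.const_mul _)) i3,
    Ex_sub hr (i1.const_mul _) (i2.const_mul _), Ex_const_mul, Ex_const_mul,
    hst n ψ V c C M hV hm W hW] at t1
  rw [Ex_add hr ((i4.const_mul _).sub (i5.const_mul _)) i6,
    Ex_sub hr (i4.const_mul _) (i5.const_mul _), Ex_const_mul, Ex_const_mul] at t2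
  rw [Ex_add hr (gm_xdW hW) i4]
  linarith

/-- the certificate inequality -/
theorem key_ineq (hst : StmtStein) (hibp : StmtIBP) (hdiv : StmtDiv) (hkey : StmtKey) {J : ℕ}
    {W : Fin J → E n → ℝ} (hW : ∀ j, Piece (W j)) (hVW : V = fun x => ∑ j, W j x) (ρ : Fin J → ℝ)
    {F u : E n → ℝ} (hF : Test F) (hu : Test u) :
    2 * Ex V (fun x => -(Lop ψ u x) * ff W ρ x) ≤
      ∑ j, ρ j ^ 2 * Ex V (fun x => (∑ i, x i * pd i (W j) x) + qf (hess (W j) x) x)
      + Ex V (fun x => (Lop ψ u x) ^ 2)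
      + 2 * Ex V (fun x => ∑ b, fld ψ (fun z => Lop ψ F z + F z + u z) b x * Lop ψ (pd b F) x)
      + 2 * ∑ j, ρ j * Ex V (fun x => ∑ b, pd b (W j) x *
          fld ψ (fun z => Lop ψ F z + F z + u z) b x) := by
  have hr := hV.toReg
  have gs := fun b => gm_fld hm (BL.of_test hu) b
  have GT := gM_tau hm
  have GH := fun j => gM_hess (hW j)
  have GN := gM_hess_test hF
  have hk := hkey n ψ V c C M hV hm F u hF hu
  have hs := Finset.sum_nonneg fun j (_ : j ∈ Finset.univ) =>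
    one_term hV hm hst (hW j) (ρ j) hF hu
  have hH : ∀ x, hess V x = ∑ j, hess (W j) x := fun x => by
    ext a b
    rw [hVW, hess_sum Finset.univ (fun j => (hW j).smooth) x a b, Matrix.sum_apply]
  have e1 : Ex V (fun x =>
      (hess V x * tau ψ x * hess F x * tau ψ x * hess F x * tau ψ x).trace) =
      ∑ j, Ex V (fun x =>
        (hess (W j) x * tau ψ x * hess F x * tau ψ x * hess F x * tau ψ x).trace) := by
    rw [← Ex_sum hr Finset.univ
      (fun j => ((((((GH j).mul GT).mul GN).mul GT).mul GN).mul GT).trace)]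
    congr 1
    ext x
    rw [hH x]
    simp only [Finset.sum_mul, Matrix.trace_sum]
  have e2 : Ex V (fun x => ∑ a, ∑ b, hess V x a b * fld ψ u a x * fld ψ u b x) =
      ∑ j, Ex V (fun x => ∑ a, ∑ b, hess (W j) x a b * fld ψ u a x * fld ψ u b x) := by
    rw [← Ex_sum hr Finset.univ (fun j => Gm.sum _ fun a => Gm.sum _ fun b =>
      ((GH j a b).mul (gs a)).mul (gs b))]
    congr 1
    ext x
    rw [hH x, Finset.sum_comm]
    simp only [Matrix.sum_apply, Finset.sum_mul]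
    rw [Finset.sum_comm]
    conv_rhs => rw [Finset.sum_comm]
    refine Finset.sum_congr rfl fun a _ => ?_
    rw [Finset.sum_comm]
  rw [e1, e2, ← Finset.sum_add_distrib] at hk
  rw [ibp_term hV hm hibp hdiv hW ρ hF hu]
  rw [Finset.sum_add_distrib, Finset.sum_sub_distrib] at hs
  have e3 : ∑ j, ρ j * (Ex V (fun x => ∑ b, pd b (W j) x *
          fld ψ (fun z => Lop ψ F z + F z + u z) b x) +
        Ex V (fun x => (hess (W j) x * tau ψ x * hess F x * tau ψ x).trace) +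
        Ex V (fun x => ∑ b, (∑ i, x i * hess (W j) x b i) * fld ψ u b x)) =
      ∑ j, ρ j * Ex V (fun x => ∑ b, pd b (W j) x *
          fld ψ (fun z => Lop ψ F z + F z + u z) b x) +
      ∑ j, ρ j * (Ex V (fun x => (hess (W j) x * tau ψ x * hess F x * tau ψ x).trace) +
        Ex V (fun x => ∑ b, (∑ i, x i * hess (W j) x b i) * fld ψ u b x)) := by
    rw [← Finset.sum_add_distrib]
    refine Finset.sum_congr rfl fun j _ => ?_
    ring
  have e4 : ∑ j, 2 * ρ j * (Ex V (fun x => (hess (W j) x * tau ψ x * hess F x * tau ψ x).trace) +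
        Ex V (fun x => ∑ b, (∑ i, x i * hess (W j) x b i) * fld ψ u b x)) =
      2 * ∑ j, ρ j * (Ex V (fun x => (hess (W j) x * tau ψ x * hess F x * tau ψ x).trace) +
        Ex V (fun x => ∑ b, (∑ i, x i * hess (W j) x b i) * fld ψ u b x)) := by
    rw [Finset.mul_sum]
    refine Finset.sum_congr rfl fun j _ => ?_
    ring
  rw [e4] at hs
  rw [e3]
  linarith

omit hV in
/-- `|τ ∇h|² ≤ (n/c)² |∇h|²` -/
theorem fld_sq_le (f : E n → ℝ) (x : E n) :
    ∑ b, fld ψ f b x ^ 2 ≤ (n / c) ^ 2 * ∑ b, pd b f x ^ 2 := by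
  have h1 : ∀ b, fld ψ f b x ^ 2 ≤ n * (1 / c) ^ 2 * ∑ k, pd k f x ^ 2 := fun b => by
    unfold fld
    refine (Finset.sum_mul_sq_le_sq_mul_sq _ _ _).trans ?_
    refine mul_le_mul_of_nonneg_right ?_ (Finset.sum_nonneg fun k _ => sq_nonneg _)
    have h2 : ∀ k, tau ψ x b k ^ 2 ≤ (1 / c) ^ 2 := fun k => by
      rw [← sq_abs]
      exact pow_le_pow_left₀ (abs_nonneg _) (Loc.tau_bdd hm x b k) 2
    calc ∑ k, tau ψ x b k ^ 2 ≤ ∑ _k : Fin n, (1 / c) ^ 2 := Finset.sum_le_sum fun k _ => h2 k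
      _ = n * (1 / c) ^ 2 := by simp
  calc ∑ b, fld ψ f b x ^ 2 ≤ ∑ _b : Fin n, n * (1 / c) ^ 2 * ∑ k, pd k f x ^ 2 :=
        Finset.sum_le_sum fun b _ => h1 b
    _ = (n / c) ^ 2 * ∑ b, pd b f x ^ 2 := by
        simp only [Finset.sum_const, Finset.card_univ, Fintype.card_fin, nsmul_eq_mul]
        ring

/-- `2 E ⟨τ∇h, Y⟩ ≤ (1/t) (n/c)² E |∇h|² + t E |Y|²` -/
theorem young {f : E n → ℝ} (hf : BL f) {Y : Fin n → E n → ℝ} (hY : ∀ b, Gm (Y b)) {t : ℝ}
    (ht : 0 < t) :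
    2 * Ex V (fun x => ∑ b, fld ψ f b x * Y b x) ≤
      (1 / t) * (n / c) ^ 2 * Ex V (fun x => ∑ b, pd b f x ^ 2) +
        t * Ex V (fun x => ∑ b, Y b x ^ 2) := by
  have hr := hV.toReg
  rw [← Ex_const_mul, ← Ex_const_mul, ← Ex_const_mul]
  have g0 : Gm (fun x => ∑ b, fld ψ f b x * Y b x) := Gm.sum _ fun b => (gm_fld hm hf b).mul (hY b)
  have g1 : Gm (fun x => ∑ b, pd b f x ^ 2) := Gm.sum _ fun b => (hf.gm_pd b).sq
  have g2 : Gm (fun x => ∑ b, Y b x ^ 2) := Gm.sum _ fun b => (hY b).sq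
  rw [← Ex_add hr (g1.const_mul _) (g2.const_mul _)]
  refine Ex_mono hr (g0.const_mul _) ((g1.const_mul _).add (g2.const_mul _)) fun x => ?_
  have h1 : ∀ b, 2 * (fld ψ f b x * Y b x) ≤ (1 / t) * fld ψ f b x ^ 2 + t * Y b x ^ 2 := fun b => by
    have h2 : 0 ≤ (fld ψ f b x - t * Y b x) ^ 2 / t := by positivity
    have h3 : (fld ψ f b x - t * Y b x) ^ 2 / t =
        (1 / t) * fld ψ f b x ^ 2 + t * Y b x ^ 2 - 2 * (fld ψ f b x * Y b x) := by
      field_simp
      ring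
    linarith
  have h4 := fld_sq_le hm f x
  calc 2 * ∑ b, fld ψ f b x * Y b x = ∑ b, 2 * (fld ψ f b x * Y b x) := Finset.mul_sum _ _ _
    _ ≤ ∑ b, ((1 / t) * fld ψ f b x ^ 2 + t * Y b x ^ 2) := Finset.sum_le_sum fun b _ => h1 b
    _ = (1 / t) * ∑ b, fld ψ f b x ^ 2 + t * ∑ b, Y b x ^ 2 := by
        rw [Finset.sum_add_distrib, Finset.mul_sum, Finset.mul_sum]
    _ ≤ (1 / t) * ((n / c) ^ 2 * ∑ b, pd b f x ^ 2) + t * ∑ b, Y b x ^ 2 := by
        gcongr
    _ = _ := by ring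

/-- the bound for one pair of test functions -/
theorem final_bound (hst : StmtStein) (hibp : StmtIBP) (hdiv : StmtDiv) (hkey : StmtKey) {J : ℕ}
    {W : Fin J → E n → ℝ} (hW : ∀ j, Piece (W j)) (hVW : V = fun x => ∑ j, W j x) (ρ : Fin J → ℝ)
    {F u : E n → ℝ} (hF : Test F) (hu : Test u) {t : ℝ} (ht : 0 < t) (m : ℝ) :
    Ex V (fun x => (ff W ρ x - m) ^ 2) ≤
      ∑ j, ρ j ^ 2 * Ex V (fun x => (∑ i, x i * pd i (W j) x) + qf (hess (W j) x) x)
      + Ex V (fun x => (Lop ψ u x + (ff W ρ x - m)) ^ 2)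
      + 2 * ((1 / t) * (n / c) ^ 2 *
          Ex V (fun x => ∑ b, pd b (fun z => Lop ψ F z + F z + u z) x ^ 2))
      + t * (Ex V (fun x => ∑ b, Lop ψ (pd b F) x ^ 2) +
          Ex V (fun x => ∑ b, (∑ j, ρ j * pd b (W j) x) ^ 2)) := by
  have hr := hV.toReg
  have hk := key_ineq hV hm hst hibp hdiv hkey hW hVW ρ hF hu
  have hh := bl_h hm hF hu
  have gL : Gm (Lop ψ u) := (BL.lop hm hu).gm
  have gf := gm_ff hW ρ
  have y1 := young hV hm hh (Y := fun b => Lop ψ (pd b F))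
    (fun b => (BL.lop hm (test_pd hF b)).gm) ht
  have y2 := young hV hm hh (Y := fun b x => ∑ j, ρ j * pd b (W j) x)
    (fun b => Gm.sum _ fun j => (Gm.of_gr ((hW j).gr_pd b)).const_mul (ρ j)) ht
  have e1 : Ex V (fun x => ∑ b, fld ψ (fun z => Lop ψ F z + F z + u z) b x *
      ∑ j, ρ j * pd b (W j) x) = ∑ j, ρ j * Ex V (fun x => ∑ b, pd b (W j) x *
          fld ψ (fun z => Lop ψ F z + F z + u z) b x) := by
    simp only [← Ex_const_mul]
    rw [← Ex_sum hr Finset.univ (fun j => (Gm.sum _ fun b =>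
      (Gm.of_gr ((hW j).gr_pd b)).mul (gm_fld hm hh b)).const_mul (ρ j))]
    congr 1
    ext x
    simp only [Finset.mul_sum]
    rw [Finset.sum_comm]
    refine Finset.sum_congr rfl fun j _ => Finset.sum_congr rfl fun b _ => ?_
    ring
  rw [e1] at y2
  -- expansion of the square
  have e2 : Ex V (fun x => (Lop ψ u x + (ff W ρ x - m)) ^ 2) =
      Ex V (fun x => (Lop ψ u x) ^ 2) - 2 * Ex V (fun x => -(Lop ψ u x) * ff W ρ x)
        + Ex V (fun x => (ff W ρ x - m) ^ 2) := by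
    have gm1 := gL.sq
    have gm2 : Gm (fun x => -(Lop ψ u x) * ff W ρ x) := gL.neg.mul gf
    have gm3 : Gm (fun x => (ff W ρ x - m) ^ 2) := (gf.sub (Gm.const m)).sq
    have e3 : (fun x => (Lop ψ u x + (ff W ρ x - m)) ^ 2) =
        fun x => (((Lop ψ u x) ^ 2 - 2 * (-(Lop ψ u x) * ff W ρ x)) - (2 * m) * Lop ψ u x)
          + (ff W ρ x - m) ^ 2 := by
      ext x
      ring
    rw [e3, Ex_add hr ((gm1.sub (gm2.const_mul 2)).sub (gL.const_mul (2 * m))) gm3,
      Ex_sub hr (gm1.sub (gm2.const_mul 2)) (gL.const_mul (2 * m)),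
      Ex_sub hr gm1 (gm2.const_mul 2), Ex_const_mul, Ex_const_mul,
      ex_lop hV hm hibp hu]
    ring
  rw [mul_add]
  rw [e2]
  linarith

end main

/-! ## growth and parity of `f` -/

/-- quadratic growth -/
def QG (f : E n → ℝ) : Prop := ∃ B : ℝ, ∀ x, |f x| ≤ B * (1 + ‖x‖ ^ 2)

theorem QG.const (a : ℝ) : QG (fun _ : E n => a) := by
  refine ⟨|a|, fun x => ?_⟩
  nlinarith [abs_nonneg a, mul_nonneg (abs_nonneg a) (sq_nonneg ‖x‖)]

theorem QG.add {f g : E n → ℝ} (hf : QG f) (hg : QG g) : QG (fun x => f x + g x) := by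
  obtain ⟨A, hA⟩ := hf
  obtain ⟨B, hB⟩ := hg
  refine ⟨A + B, fun x => ?_⟩
  rw [add_mul]
  exact (abs_add_le _ _).trans (add_le_add (hA x) (hB x))

theorem QG.const_mul {f : E n → ℝ} (hf : QG f) (a : ℝ) : QG (fun x => a * f x) := by
  obtain ⟨A, hA⟩ := hf
  refine ⟨|a| * A, fun x => ?_⟩
  rw [abs_mul, mul_assoc]
  exact mul_le_mul_of_nonneg_left (hA x) (abs_nonneg a)

theorem QG.sum {ι : Type*} (s : Finset ι) {f : ι → E n → ℝ} (hf : ∀ i, QG (f i)) :
    QG (fun x => ∑ i ∈ s, f i x) := by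
  classical
  induction s using Finset.induction_on with
  | empty => simpa using QG.const (n := n) 0
  | insert a s ha ih =>
    have h := (hf a).add ih
    simpa [Finset.sum_insert ha] using h

theorem qg_xdW {W : E n → ℝ} (hW : Piece W) (i : Fin n) : QG (fun x => x i * pd i W x) := by
  obtain ⟨B, hB⟩ := hW.bdd 2 le_rfl
  have hB0 : 0 ≤ B := (norm_nonneg _).trans (hB 0)
  refine ⟨‖fderiv ℝ W 0‖ + B, fun x => ?_⟩
  rw [abs_mul]
  have h1 := abs_coord_le x i
  have h2 := (abs_pd_le_norm W x i).trans (norm_fderiv_le hW.C2 hB x)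
  have h3 := norm_nonneg x
  have h4 := norm_nonneg (fderiv ℝ W 0)
  have h5 := mul_le_mul h1 h2 (abs_nonneg _) h3
  have h6 : ‖x‖ ≤ 1 + ‖x‖ ^ 2 := by nlinarith [sq_nonneg (‖x‖ - 1)]
  calc |x i| * |pd i W x| ≤ ‖x‖ * (‖fderiv ℝ W 0‖ + B * ‖x‖) := h5
    _ = ‖fderiv ℝ W 0‖ * ‖x‖ + B * ‖x‖ ^ 2 := by ring
    _ ≤ ‖fderiv ℝ W 0‖ * (1 + ‖x‖ ^ 2) + B * (1 + ‖x‖ ^ 2) := by gcongr; linarith
    _ = _ := by ring

theorem qg_ff {J : ℕ} {W : Fin J → E n → ℝ} (hW : ∀ j, Piece (W j)) (ρ : Fin J → ℝ) :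
    QG (ff W ρ) := by
  unfold ff
  exact QG.sum _ fun j => (QG.sum _ fun i => qg_xdW (hW j) i).const_mul (ρ j)

theorem pd_neg_of_even {f : E n → ℝ} (hf : ∀ x, f (-x) = f x) (hd : Differentiable ℝ f)
    (i : Fin n) (x : E n) : pd i f (-x) = -pd i f x := by
  have h : (fun x => f (-x)) = f := funext hf
  have h1 : HasFDerivAt (fun x => f (-x))
      ((fderiv ℝ f (-x)).comp (-(ContinuousLinearMap.id ℝ (E n)))) x :=
    (hd (-x)).hasFDerivAt.comp x (hasFDerivAt_id x).neg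
  rw [h] at h1
  unfold pd
  rw [h1.fderiv]
  simp

theorem ff_even {J : ℕ} {W : Fin J → E n → ℝ} (hW : ∀ j, Piece (W j)) (ρ : Fin J → ℝ) (x : E n) :
    ff W ρ (-x) = ff W ρ x := by
  unfold ff
  refine Finset.sum_congr rfl fun j _ => ?_
  congr 1
  refine Finset.sum_congr rfl fun i _ => ?_
  rw [pd_neg_of_even (hW j).even ((hW j).smooth.differentiable (by simp))]
  simp

/-! ## the theorem -/

/-- **LOC**, for one potential with a moment map. -/
theorem loc_of_mm (hst : StmtStein) (hibp : StmtIBP) (hdiv : StmtDiv) (hkey : StmtKey)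
    (hlin : StmtLin) (n : ℕ) (ψ V : E n → ℝ) (c C M : ℝ) (hV : Nice V c C) (hm : MM ψ V c C M)
    (J : ℕ) (W : Fin J → E n → ℝ) (ρ : Fin J → ℝ) (hW : ∀ j, Piece (W j))
    (hVW : V = fun x => ∑ j, W j x) :
    Ex V (fun x => (∑ j, ρ j * ∑ i, x i * pd i (W j) x) ^ 2)
      - (Ex V (fun x => ∑ j, ρ j * ∑ i, x i * pd i (W j) x)) ^ 2
      ≤ ∑ j, ρ j ^ 2 * Ex V (fun x => (∑ i, x i * pd i (W j) x) + qf (hess (W j) x) x) := by
  have hr := hV.toReg
  change Ex V (fun x => (ff W ρ x) ^ 2) - (Ex V (ff W ρ)) ^ 2 ≤ _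
  set m : ℝ := Ex V (ff W ρ) with hmdef
  have gf := gm_ff hW ρ
  have hsq : Ex V (fun x => (ff W ρ x - m) ^ 2) = Ex V (fun x => (ff W ρ x) ^ 2) - m ^ 2 := by
    have e : (fun x => (ff W ρ x - m) ^ 2) =
        fun x => (ff W ρ x) ^ 2 - ((2 * m) * ff W ρ x - m ^ 2) := by
      ext x
      ring
    rw [e, Ex_sub hr gf.sq ((gf.const_mul (2 * m)).sub (Gm.const (m ^ 2))),
      Ex_sub hr (gf.const_mul (2 * m)) (Gm.const (m ^ 2)), Ex_const_mul, Ex_const hr, ← hmdef]
    ring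
  rw [← hsq]
  have hr0 : Ex V (fun x => ff W ρ x - m) = 0 := by
    rw [Ex_sub hr gf (Gm.const m), Ex_const hr, ← hmdef, sub_self]
  have hcont : Continuous (fun x => ff W ρ x - m) :=
    (ff_smooth hW ρ).continuous.sub continuous_const
  have heven : ∀ x, ff W ρ (-x) - m = ff W ρ x - m := fun x => by rw [ff_even hW]
  have hqg : ∃ B, ∀ x, |ff W ρ x - m| ≤ B * (1 + ‖x‖ ^ 2) := by
    obtain ⟨B, hB⟩ := (qg_ff hW ρ).add (QG.const (-m))
    exact ⟨B, fun x => by simpa [sub_eq_add_neg] using hB x⟩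
  set G : ℝ := Ex V (fun x => ∑ b, (∑ j, ρ j * pd b (W j) x) ^ 2) with hG
  have hG0 : 0 ≤ G := Ex_nonneg fun x => Finset.sum_nonneg fun b _ => sq_nonneg _
  refine le_of_forall_pos_le_add fun ε' hε' => ?_
  obtain ⟨ε, hε, rfl⟩ : ∃ ε : ℝ, 0 < ε ∧ ε' = 3 * ε := ⟨ε' / 3, by positivity, by ring⟩
  obtain ⟨B, hB⟩ := hlin n ψ V c C M hV hm _ hcont heven hqg hr0 ε hε
  set K : ℝ := (n / c) ^ 2 with hK
  have hK0 : 0 ≤ K := sq_nonneg _
  have hD : 0 < |B| + G + 1 := by positivity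
  set t : ℝ := ε / (|B| + G + 1) with ht
  have ht0 : 0 < t := by positivity
  obtain ⟨F, u, hF, hu, h1, h2, h3⟩ := hB (ε * t / (2 * K + 1)) (by positivity)
  have h4 := final_bound hV hm hst hibp hdiv hkey hW hVW ρ hF hu ht0 m
  have h5 : 2 * ((1 / t) * K *
      Ex V (fun x => ∑ b, pd b (fun z => Lop ψ F z + F z + u z) x ^ 2)) ≤ ε := by
    calc 2 * ((1 / t) * K * Ex V (fun x => ∑ b, pd b (fun z => Lop ψ F z + F z + u z) x ^ 2))
        ≤ 2 * ((1 / t) * K * (ε * t / (2 * K + 1))) := by gcongr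
      _ = ε * (2 * K / (2 * K + 1)) := by
          field_simp
      _ ≤ ε * 1 := by
          gcongr
          rw [div_le_one (by positivity)]
          linarith
      _ = ε := mul_one ε
  have h6 : t * (Ex V (fun x => ∑ b, Lop ψ (pd b F) x ^ 2) + G) ≤ ε := by
    calc t * (Ex V (fun x => ∑ b, Lop ψ (pd b F) x ^ 2) + G) ≤ t * (|B| + G + 1) :=
          mul_le_mul_of_nonneg_left (by linarith [le_abs_self B]) ht0.le
      _ = ε := by
          rw [ht]
          field_simp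
  linarith

/-- **LOC**. -/
theorem stmtLocal_of (hst : StmtStein) (hibp : StmtIBP) (hdiv : StmtDiv) (hkey : StmtKey)
    (hlin : StmtLin) (hmm : StmtMM) : StmtLocal := by
  intro n J W ρ c C hW hV
  obtain ⟨ψ, M, hm⟩ := hmm n _ c C hV
  exact loc_of_mm hst hibp hdiv hkey hlin n ψ _ c C M hV hm J W ρ hW rfl

end Vale.Agent.P227.M.Loc945
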