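import Mathlib

/-!
P227, block LOC (helper556): the pointwise positivity behind the local log-Brunn-Minkowski
inequality and its integrated form, with the final density step.
-/

namespace Vale.Agent.P227.M.LOC

open Matrix Finset MeasureTheory

variable {n : ℕ}

/-- the trace of the product of two positive semidefinite matrices is nonnegative -/
theorem trace_mul_nonneg {A B : Matrix (Fin n) (Fin n) ℝ} (hA : A.PosSemidef) (hB : B.PosSemidef) :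
    0 ≤ (A * B).trace := by
  obtain ⟨m, v, rfl⟩ := Matrix.posSemidef_iff_eq_sum_vecMulVec.1 hA
  rw [Matrix.sum_mul, Matrix.trace_sum]
  refine Finset.sum_nonneg fun i _ => ?_
  rw [Matrix.trace_mul_comm, Matrix.mul_vecMulVec, Matrix.trace_vecMulVec]
  have h := hB.dotProduct_mulVec_nonneg (v i)
  rw [dotProduct_comm] at h
  exact h

/-- `tr (H (ρ τ - K) τ⁻¹ (ρ τ - K)) ≥ 0`, expanded -/
theorem tr_term {H τ K : Matrix (Fin n) (Fin n) ℝ} (hH : H.PosSemidef) (hτ : τ.PosDef)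
    (hK : K.IsHermitian) (ρ : ℝ) :
    0 ≤ ρ ^ 2 * (H * τ).trace - 2 * ρ * (H * K).trace + (H * (K * τ⁻¹ * K)).trace := by
  have hu : IsUnit τ.det := by
    have := hτ.det_pos
    exact isUnit_iff_ne_zero.2 (ne_of_gt this)
  have hM : (ρ • τ - K).IsHermitian := by
    have h1 : (ρ • τ).IsHermitian := by
      unfold Matrix.IsHermitian
      rw [Matrix.conjTranspose_smul, hτ.isHermitian.eq]
      simp
    exact h1.sub hK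
  have hP : ((ρ • τ - K) * τ⁻¹ * (ρ • τ - K)).PosSemidef := by
    have h := hτ.inv.posSemidef.conjTranspose_mul_mul_same (ρ • τ - K)
    rwa [hM.eq] at h
  have h := trace_mul_nonneg hH hP
  have e : (ρ • τ - K) * τ⁻¹ * (ρ • τ - K) = ρ ^ 2 • τ - (2 * ρ) • K + K * τ⁻¹ * K := by
    rw [sub_mul, Matrix.smul_mul, Matrix.mul_nonsing_inv τ hu, sub_mul, mul_sub]
    have e1 : K * τ⁻¹ * (ρ • τ - K) = ρ • K - K * τ⁻¹ * K := by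
      rw [mul_sub, Matrix.mul_smul, Matrix.mul_assoc, Matrix.nonsing_inv_mul τ hu, mul_one]
    rw [e1, Matrix.smul_mul, one_mul, Matrix.smul_mul, one_mul, smul_smul]
    ext i j
    simp only [Matrix.sub_apply, Matrix.add_apply, Matrix.smul_apply, smul_eq_mul]
    ring
  rw [e, mul_add, mul_sub, Matrix.mul_smul, Matrix.mul_smul, Matrix.trace_add, Matrix.trace_sub,
    Matrix.trace_smul, Matrix.trace_smul, smul_eq_mul, smul_eq_mul] at h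
  exact h

/-- `⟨H (ρ x - s), ρ x - s⟩ ≥ 0`, expanded -/
theorem vec_term {H : Matrix (Fin n) (Fin n) ℝ} (hH : H.PosSemidef) (x s : Fin n → ℝ) (ρ : ℝ) :
    0 ≤ ρ ^ 2 * (x ⬝ᵥ H *ᵥ x) - 2 * ρ * (x ⬝ᵥ H *ᵥ s) + s ⬝ᵥ H *ᵥ s := by
  have h := hH.dotProduct_mulVec_nonneg (ρ • x - s)
  have hsym : s ⬝ᵥ H *ᵥ x = x ⬝ᵥ H *ᵥ s := by
    have hT : Hᵀ = H := by
      have := hH.isHermitian.eq
      rwa [Matrix.conjTranspose_eq_transpose_of_trivial] at this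
    rw [Matrix.dotProduct_mulVec, ← Matrix.mulVec_transpose, hT, dotProduct_comm]
  simp only [star_trivial, Matrix.mulVec_sub, Matrix.mulVec_smul, dotProduct_sub, sub_dotProduct,
    smul_dotProduct, dotProduct_smul, smul_eq_mul, hsym] at h
  nlinarith [h]

/-- **Pointwise positivity.** -/
theorem pointwise {J : Type*} [Fintype J] {H : J → Matrix (Fin n) (Fin n) ℝ}
    {τ K : Matrix (Fin n) (Fin n) ℝ} (hH : ∀ j, (H j).PosSemidef) (hτ : τ.PosDef)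
    (hK : K.IsHermitian) (x s : Fin n → ℝ) (ρ : J → ℝ) :
    0 ≤ ∑ j, ρ j ^ 2 * ((H j * τ).trace + x ⬝ᵥ H j *ᵥ x) -
      2 * ∑ j, ρ j * ((H j * K).trace + x ⬝ᵥ H j *ᵥ s) + s ⬝ᵥ (∑ j, H j) *ᵥ s +
      ((∑ j, H j) * (K * τ⁻¹ * K)).trace := by
  have h : 0 ≤ ∑ j, ((ρ j ^ 2 * (H j * τ).trace - 2 * ρ j * (H j * K).trace +
      (H j * (K * τ⁻¹ * K)).trace) +
      (ρ j ^ 2 * (x ⬝ᵥ H j *ᵥ x) - 2 * ρ j * (x ⬝ᵥ H j *ᵥ s) + s ⬝ᵥ H j *ᵥ s)) :=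
    Finset.sum_nonneg fun j _ => add_nonneg (tr_term (hH j) hτ hK (ρ j)) (vec_term (hH j) x s (ρ j))
  have e1 : s ⬝ᵥ (∑ j, H j) *ᵥ s = ∑ j, s ⬝ᵥ H j *ᵥ s := by
    rw [Matrix.sum_mulVec, dotProduct_sum]
  have e2 : ((∑ j, H j) * (K * τ⁻¹ * K)).trace = ∑ j, (H j * (K * τ⁻¹ * K)).trace := by
    rw [Matrix.sum_mul, Matrix.trace_sum]
  rw [e1, e2, Finset.mul_sum, ← Finset.sum_sub_distrib, ← Finset.sum_add_distrib,
    ← Finset.sum_add_distrib]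
  refine h.trans (le_of_eq (Finset.sum_congr rfl fun j _ => ?_))
  ring

/-- **Integrated form**: the four integrated facts imply the inequality for one test function. -/
theorem integrated {Ω : Type*} [MeasurableSpace Ω] {μ : Measure Ω} {J : Type*} [Fintype J]
    {H : J → Ω → Matrix (Fin n) (Fin n) ℝ} {τ K : Ω → Matrix (Fin n) (Fin n) ℝ}
    (hH : ∀ j ω, (H j ω).PosSemidef) (hτ : ∀ ω, (τ ω).PosDef) (hK : ∀ ω, (K ω).IsHermitian)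
    {x s : Ω → Fin n → ℝ} (ρ : J → ℝ) {g : J → Ω → ℝ} {f w : Ω → ℝ} {D : ℝ}
    (i1 : ∀ j, Integrable (fun ω => (H j ω * τ ω).trace) μ)
    (i2 : ∀ j, Integrable (fun ω => x ω ⬝ᵥ H j ω *ᵥ x ω) μ)
    (i3 : ∀ j, Integrable (fun ω => (H j ω * K ω).trace) μ)
    (i4 : ∀ j, Integrable (fun ω => x ω ⬝ᵥ H j ω *ᵥ s ω) μ)
    (i5 : Integrable (fun ω => s ω ⬝ᵥ (∑ j, H j ω) *ᵥ s ω) μ)
    (i6 : Integrable (fun ω => ((∑ j, H j ω) * (K ω * (τ ω)⁻¹ * K ω)).trace) μ)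
    (h1 : ∀ j, ∫ ω, g j ω ∂μ = ∫ ω, (H j ω * τ ω).trace ∂μ)
    (h2 : ∫ ω, f ω * w ω ∂μ =
      ∑ j, ρ j * (∫ ω, (H j ω * K ω).trace ∂μ + ∫ ω, x ω ⬝ᵥ H j ω *ᵥ s ω ∂μ))
    (h3 : ∫ ω, w ω ^ 2 ∂μ = ∫ ω, s ω ⬝ᵥ (∑ j, H j ω) *ᵥ s ω ∂μ + D)
    (h4 : ∫ ω, ((∑ j, H j ω) * (K ω * (τ ω)⁻¹ * K ω)).trace ∂μ ≤ D) :
    0 ≤ ∑ j, ρ j ^ 2 * (∫ ω, g j ω ∂μ + ∫ ω, x ω ⬝ᵥ H j ω *ᵥ x ω ∂μ) -
      2 * ∫ ω, f ω * w ω ∂μ + ∫ ω, w ω ^ 2 ∂μ := by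
  have hp : 0 ≤ ∫ ω, (∑ j, ρ j ^ 2 * ((H j ω * τ ω).trace + x ω ⬝ᵥ H j ω *ᵥ x ω) -
      2 * ∑ j, ρ j * ((H j ω * K ω).trace + x ω ⬝ᵥ H j ω *ᵥ s ω) +
      s ω ⬝ᵥ (∑ j, H j ω) *ᵥ s ω +
      ((∑ j, H j ω) * (K ω * (τ ω)⁻¹ * K ω)).trace) ∂μ :=
    integral_nonneg fun ω => pointwise (fun j => hH j ω) (hτ ω) (hK ω) (x ω) (s ω) ρ
  have j1 : ∀ j, Integrable (fun ω => ρ j ^ 2 * ((H j ω * τ ω).trace + x ω ⬝ᵥ H j ω *ᵥ x ω)) μ :=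
    fun j => ((i1 j).add (i2 j)).const_mul _
  have j2 : ∀ j, Integrable (fun ω => ρ j * ((H j ω * K ω).trace + x ω ⬝ᵥ H j ω *ᵥ s ω)) μ :=
    fun j => ((i3 j).add (i4 j)).const_mul _
  have k1 : Integrable (fun ω => ∑ j, ρ j ^ 2 * ((H j ω * τ ω).trace + x ω ⬝ᵥ H j ω *ᵥ x ω)) μ :=
    integrable_finsetSum _ fun j _ => j1 j
  have k2 : Integrable (fun ω => 2 * ∑ j, ρ j * ((H j ω * K ω).trace +
      x ω ⬝ᵥ H j ω *ᵥ s ω)) μ :=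
    (integrable_finsetSum _ fun j _ => j2 j).const_mul _
  rw [integral_add (f := fun ω => ∑ j, ρ j ^ 2 * ((H j ω * τ ω).trace + x ω ⬝ᵥ H j ω *ᵥ x ω) -
      2 * ∑ j, ρ j * ((H j ω * K ω).trace + x ω ⬝ᵥ H j ω *ᵥ s ω) +
      s ω ⬝ᵥ (∑ j, H j ω) *ᵥ s ω) ((k1.sub k2).add i5) i6,
    integral_add (f := fun ω => ∑ j, ρ j ^ 2 * ((H j ω * τ ω).trace + x ω ⬝ᵥ H j ω *ᵥ x ω) -
      2 * ∑ j, ρ j * ((H j ω * K ω).trace + x ω ⬝ᵥ H j ω *ᵥ s ω)) (k1.sub k2) i5,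
    integral_sub k1 k2, integral_finsetSum _ (fun j _ => j1 j), integral_const_mul,
    integral_finsetSum _ (fun j _ => j2 j)] at hp
  have e1 : ∀ j, ∫ ω, ρ j ^ 2 * ((H j ω * τ ω).trace + x ω ⬝ᵥ H j ω *ᵥ x ω) ∂μ =
      ρ j ^ 2 * (∫ ω, g j ω ∂μ + ∫ ω, x ω ⬝ᵥ H j ω *ᵥ x ω ∂μ) := by
    intro j
    rw [integral_const_mul, integral_add (i1 j) (i2 j), h1 j]
  have e2 : ∀ j, ∫ ω, ρ j * ((H j ω * K ω).trace + x ω ⬝ᵥ H j ω *ᵥ s ω) ∂μ =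
      ρ j * (∫ ω, (H j ω * K ω).trace ∂μ + ∫ ω, x ω ⬝ᵥ H j ω *ᵥ s ω ∂μ) := by
    intro j
    rw [integral_const_mul, integral_add (i3 j) (i4 j)]
  simp only [e1, e2] at hp
  rw [← h2] at hp
  rw [h3]
  linarith

/-- **Density step**: if `f - E f` is a limit of test functions `w` for which the inequality of
`integrated` holds, then `Var f ≤ A`. -/
theorem var_le_of_dense {Ω : Type*} [MeasurableSpace Ω] {μ : Measure Ω} [IsProbabilityMeasure μ]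
    {f : Ω → ℝ} (hf : MemLp f 2 μ) {A : ℝ}
    (h : ∀ ε : ℝ, 0 < ε → ∃ w : Ω → ℝ, MemLp w 2 μ ∧ ∫ ω, w ω ∂μ = 0 ∧
      ∫ ω, (f ω - ∫ ω', f ω' ∂μ - w ω) ^ 2 ∂μ ≤ ε ∧
      0 ≤ A - 2 * ∫ ω, f ω * w ω ∂μ + ∫ ω, w ω ^ 2 ∂μ) :
    ∫ ω, (f ω - ∫ ω', f ω' ∂μ) ^ 2 ∂μ ≤ A := by
  refine le_of_forall_pos_le_add fun ε hε => ?_
  obtain ⟨w, hw, hw0, hwε, hA⟩ := h ε hε
  set m := ∫ ω', f ω' ∂μ with hm
  have hfm : MemLp (fun ω => f ω - m) 2 μ := hf.sub (memLp_const m)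
  have i1 : Integrable (fun ω => (f ω - m) ^ 2) μ := hfm.integrable_sq
  have i2 : Integrable (fun ω => w ω ^ 2) μ := hw.integrable_sq
  have i3 : Integrable (fun ω => (f ω - m) * w ω) μ := hfm.integrable_mul hw
  have i4 : Integrable (fun ω => f ω * w ω) μ := hf.integrable_mul hw
  have i5 : Integrable w μ := hw.integrable (by norm_num)
  have e1 : ∫ ω, (f ω - m - w ω) ^ 2 ∂μ =
      ∫ ω, (f ω - m) ^ 2 ∂μ - 2 * ∫ ω, (f ω - m) * w ω ∂μ + ∫ ω, w ω ^ 2 ∂μ := by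
    have e : ∀ ω, (f ω - m - w ω) ^ 2 = (f ω - m) ^ 2 - 2 * ((f ω - m) * w ω) + w ω ^ 2 :=
      fun ω => by ring
    simp only [e]
    rw [integral_add (f := fun ω => (f ω - m) ^ 2 - 2 * ((f ω - m) * w ω))
      (i1.sub (i3.const_mul 2)) i2, integral_sub i1 (i3.const_mul 2), integral_const_mul]
  have e2 : ∫ ω, (f ω - m) * w ω ∂μ = ∫ ω, f ω * w ω ∂μ := by
    have : ∀ ω, (f ω - m) * w ω = f ω * w ω - m * w ω := fun ω => by ring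
    simp only [this]
    rw [integral_sub i4 (i5.const_mul m), integral_const_mul, hw0, mul_zero, sub_zero]
  rw [e1, e2] at hwε
  linarith

end Vale.Agent.P227.M.LOC
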